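import Vale.Agent.P011.H871.C2.XR
import Vale.Agent.P011.H279.X2D

/-!
# Characteristic two: the symmetric element `t` with `t * t + t = a`, in every anisotropic ring
-/

open Module

set_option linter.unusedSectionVars false

namespace Vale.Agent.P011.H27.C2

open Vale.Agent.P011.H738 Vale.Agent.P011.H271 Vale.Agent.P011.H961

/-- **(X)_2**: in every central simple algebra of even degree `2 m` with anisotropic involution of
the second kind over a global function field of characteristic two there is a symmetric element `t`
with `t * t + t = a` in the ground field, such that neither `a` nor `a + ν` is of the form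
`z * z + z`, and whose centralizer is a division ring. -/
theorem exists_t2 {k K A : Type} [Field k] [GFF k] [Field K] [StarRing K] [Ring A] [StarRing A]
    [Algebra k K] [Algebra k A] [Algebra K A] [IsScalarTower k K A] [StarModule K A] {m n : ℕ}
    (h2 : (2 : k) = 0) (hA : Anis k K A n) (hm : 0 < m) (hn : n = 2 * m)
    {κ : K} {ν : k} (hκ : κ + star κ = 1) (hν : κ * κ + κ = algebraMap k K ν) :
    ∃ (a : k) (t : A), star t = t ∧ t * t + t = algebraMap k A a ∧ (∀ z : k, z * z + z ≠ a) ∧
      (∀ z : k, z * z + z ≠ a + ν) ∧ ∀ c : A, c * t = t * c → c ≠ 0 → IsUnit c := by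
  subst hn
  by_cases hdiv : ∃ x : A, x ≠ 0 ∧ ¬ IsUnit x
  · obtain ⟨a, t, h1, h3, -, h4, h5, -, h6⟩ :=
      H871.C2.exists_tR hA (by omega) h2 hdiv hκ hν ∅ one_pos
    exact ⟨a, t, h1, h3, fun z => by rw [← pow_two]; exact h4 z,
      fun z => by rw [← pow_two]; exact h5 z, h6⟩
  · push Not at hdiv
    have := hA.simple
    let _ : DivisionRing A := DivisionRing.ofIsUnitOrEqZero fun x => by
      by_cases hx : x = 0
      · exact Or.inr hx
      · exact Or.inl (hdiv x hx)
    have h2K : (2 : K) = 0 := by rw [← map_ofNat (algebraMap k K) 2, h2, map_zero]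
    have hκ' : star κ = κ + 1 := by
      linear_combination hκ - κ * h2K
    obtain ⟨a, t, h1, h3, h4, h5, -⟩ := H279.X2.exists_t2D (anis_toG hA (by omega)) h2
      hA.finrank_eq hm hκ' hν ∅ one_pos
    exact ⟨a, t, h1, h3, h4, h5, fun c _ hc => hdiv c hc⟩

end Vale.Agent.P011.H27.C2
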